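import Mathlib

/-!
P061: every constant in the strong thin tree conjecture is at least `4`; the complete graphs.

A loopless multigraph on the vertex set `Fin n` is given by its symmetric function `w` of
multiplicities, `w u v` being the number of edge copies which join `u` and `v`.
-/

namespace Vale.Agent.Results.P061.ConstantAtLeastFour

open Finset

/-- the number of edge copies with exactly one end vertex in `S` -/
def cutSize {n : ℕ} (w : Fin n → Fin n → ℕ) (S : Finset (Fin n)) : ℕ :=
  ∑ u ∈ S, ∑ v ∈ Sᶜ, w u v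

/-- the number of edges of the simple graph `T` with exactly one end vertex in `S` -/
noncomputable def crossing {n : ℕ} (T : SimpleGraph (Fin n)) (S : Finset (Fin n)) : ℕ := by
  classical exact ((S ×ˢ Sᶜ).filter fun p => T.Adj p.1 p.2).card

/-- every cut has at least `k` edge copies -/
def EdgeConnected {n : ℕ} (w : Fin n → Fin n → ℕ) (k : ℕ) : Prop :=
  ∀ S : Finset (Fin n), S.Nonempty → S ≠ univ → k ≤ cutSize w S

/-- `T` is an `α`-thin spanning tree of the multigraph -/
def ThinTree {n : ℕ} (w : Fin n → Fin n → ℕ) (α : ℝ) (T : SimpleGraph (Fin n)) : Prop :=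
  T.IsTree ∧ (∀ u v, T.Adj u v → 1 ≤ w u v) ∧
    ∀ S : Finset (Fin n), S.Nonempty → S ≠ univ → (crossing T S : ℝ) ≤ α * cutSize w S

/-- the strong thin tree conjecture with the constant `C` -/
def StrongThinTree (C : ℝ) : Prop :=
  ∀ k n : ℕ, 1 ≤ k → 2 ≤ n → ∀ w : Fin n → Fin n → ℕ, (∀ u v, w u v = w v u) → (∀ u, w u u = 0) →
    EdgeConnected w k → ∃ T : SimpleGraph (Fin n), ThinTree w (C / k) T

/-- the complete graph on `n` vertices with `m` copies of every edge -/
def complete (n m : ℕ) : Fin n → Fin n → ℕ := fun u v => if u = v then 0 else m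

theorem cutSize_complete (n m : ℕ) (S : Finset (Fin n)) :
    cutSize (complete n m) S = S.card * (n - S.card) * m := by
  unfold cutSize complete
  have h1 : ∀ u ∈ S, ∑ v ∈ Sᶜ, (if u = v then 0 else m) = (n - S.card) * m := by
    intro u hu
    have h2 : ∀ v ∈ Sᶜ, (if u = v then 0 else m) = m := by
      intro v hv
      rw [if_neg]
      rintro rfl
      exact (mem_compl.1 hv) hu
    rw [sum_congr rfl h2, sum_const, smul_eq_mul, card_compl, Fintype.card_fin]
  rw [sum_congr rfl h1, sum_const, smul_eq_mul, mul_assoc]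

theorem card_lt {n : ℕ} {S : Finset (Fin n)} (hS : S ≠ univ) : S.card < n := by
  have h := (card_lt_iff_ne_univ S).2 hS
  rwa [Fintype.card_fin] at h

theorem edgeConnected_complete (n m : ℕ) : EdgeConnected (complete n m) (m * (n - 1)) := by
  intro S hS hS'
  rw [cutSize_complete]
  have h1 : 1 ≤ S.card := hS.card_pos
  have h2 := card_lt hS'
  obtain ⟨a, ha⟩ : ∃ a, S.card = a + 1 := ⟨S.card - 1, by omega⟩
  obtain ⟨b, hb⟩ : ∃ b, n = S.card + b + 1 := ⟨n - S.card - 1, by omega⟩
  have e1 : n - S.card = b + 1 := by omega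
  have e2 : n - 1 = a + b + 1 := by omega
  rw [e1, e2, ha, mul_comm]
  refine Nat.mul_le_mul_right m ?_
  nlinarith [Nat.zero_le (a * b)]

/-- in the bipartition of a tree all edges cross -/
theorem exists_full {n : ℕ} {T : SimpleGraph (Fin n)} (hT : T.IsTree) :
    ∃ S : Finset (Fin n), n ≤ crossing T S + 1 := by
  classical
  let c := hT.isAcyclic.coloringTwo
  refine ⟨univ.filter fun v => c v = 0, ?_⟩
  set S : Finset (Fin n) := univ.filter fun v => c v = 0 with hS
  have h1 := hT.card_edgeFinset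
  rw [Fintype.card_fin] at h1
  have h2 : T.edgeFinset ⊆ ((S ×ˢ Sᶜ).filter fun p => T.Adj p.1 p.2).image
      fun p => s(p.1, p.2) := by
    intro e he
    induction e with
    | _ u v =>
      rw [SimpleGraph.mem_edgeFinset, SimpleGraph.mem_edgeSet] at he
      have hc : c u ≠ c v := c.valid he
      rw [mem_image]
      by_cases hu : c u = 0
      · refine ⟨(u, v), ?_, rfl⟩
        rw [mem_filter, mem_product, mem_compl, hS, mem_filter, mem_filter]
        refine ⟨⟨⟨mem_univ _, hu⟩, ?_⟩, he⟩
        rintro ⟨-, h⟩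
        exact hc (hu.trans h.symm)
      · refine ⟨(v, u), ?_, Sym2.eq_swap⟩
        rw [mem_filter, mem_product, mem_compl, hS, mem_filter, mem_filter]
        refine ⟨⟨⟨mem_univ _, ?_⟩, fun h => hu h.2⟩, he.symm⟩
        by_contra hv
        have h3 : ∀ x y : Fin 2, x ≠ 0 → y ≠ 0 → x = y := by decide
        exact hc (h3 _ _ hu hv)
  have h3 := (card_le_card h2).trans card_image_le
  have h4 : crossing T S = ((S ×ˢ Sᶜ).filter fun p => T.Adj p.1 p.2).card := by
    unfold crossing
    congr
  rw [h4]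
  omega

theorem thin_complete {n m : ℕ} (hn : 2 ≤ n) (hm : 1 ≤ m) {α : ℝ} {T : SimpleGraph (Fin n)}
    (hT : ThinTree (complete n m) α T) : 4 * ((n : ℝ) - 1) / (m * (n : ℝ) ^ 2) ≤ α := by
  classical
  obtain ⟨h1, -, h3⟩ := hT
  obtain ⟨S, hS⟩ := exists_full h1
  have hpos : 0 < crossing T S := by omega
  have hne : S.Nonempty ∧ S ≠ univ := by
    unfold crossing at hpos
    obtain ⟨p, hp⟩ := card_pos.1 hpos
    rw [mem_filter, mem_product, mem_compl] at hp
    refine ⟨⟨_, hp.1.1⟩, ?_⟩
    rintro h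
    exact hp.1.2 (by rw [h]; exact mem_univ _)
  have h4 := h3 S hne.1 hne.2
  rw [cutSize_complete] at h4
  have h5 := card_lt hne.2
  have hn1 : (n : ℝ) - 1 ≤ crossing T S := by
    have : (n : ℝ) ≤ crossing T S + 1 := by exact_mod_cast hS
    linarith
  have hn2 : (2 : ℝ) ≤ n := by exact_mod_cast hn
  have hm1 : (1 : ℝ) ≤ m := by exact_mod_cast hm
  rw [Nat.cast_mul, Nat.cast_mul, Nat.cast_sub h5.le] at h4
  set s : ℝ := (S.card : ℝ) with hs
  have hs0 : 0 < s := by
    rw [hs]
    exact_mod_cast hne.1.card_pos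
  have hs1 : s < n := by
    rw [hs]
    exact_mod_cast h5
  have h6 : 0 < s * ((n : ℝ) - s) * m := by
    have : 0 < (n : ℝ) - s := by linarith
    positivity
  have hα : 0 < α := by
    by_contra hcon
    have := mul_nonpos_of_nonpos_of_nonneg (not_lt.1 hcon) h6.le
    linarith
  have h7 : s * ((n : ℝ) - s) * m ≤ (n : ℝ) ^ 2 / 4 * m := by
    refine mul_le_mul_of_nonneg_right ?_ (by linarith)
    nlinarith [sq_nonneg ((n : ℝ) - 2 * s)]
  have h8 : (n : ℝ) - 1 ≤ α * ((n : ℝ) ^ 2 / 4 * m) :=
    hn1.trans (h4.trans (mul_le_mul_of_nonneg_left h7 hα.le))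
  rw [div_le_iff₀ (by positivity)]
  linarith

/-- (1) for all `n ≥ 2` and `m ≥ 1` the complete graph on `n` vertices with `m` copies of every edge
is `m (n - 1)`-edge-connected and all its spanning trees have thinness at least
`4 (n - 1) / (m n ^ 2)`; (2) every constant in the strong thin tree conjecture is at least `4` -/
theorem result :
    (∀ n m : ℕ, 2 ≤ n → 1 ≤ m → EdgeConnected (complete n m) (m * (n - 1)) ∧
      ∀ (α : ℝ) (T : SimpleGraph (Fin n)), ThinTree (complete n m) α T →
        4 * ((n : ℝ) - 1) / (m * (n : ℝ) ^ 2) ≤ α) ∧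
    ∀ C : ℝ, StrongThinTree C → 4 ≤ C := by
  refine ⟨fun n m hn hm => ⟨edgeConnected_complete n m, fun α T hT => thin_complete hn hm hT⟩, ?_⟩
  intro C hC
  by_contra hcon
  rw [not_le] at hcon
  obtain ⟨N, hN⟩ := exists_nat_gt (8 / (4 - C))
  set n : ℕ := N + 2 with hn
  have hn2 : 2 ≤ n := by omega
  have h1 : (1 : ℕ) ≤ n - 1 := by omega
  obtain ⟨T, hT⟩ := hC (n - 1) n h1 hn2 (complete n 1) (by
      intro u v
      unfold complete
      by_cases h : u = v
      · rw [if_pos h, if_pos h.symm]
      · rw [if_neg h, if_neg (fun h' => h h'.symm)]) (by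
      intro u
      unfold complete
      rw [if_pos rfl]) (by
      have := edgeConnected_complete n 1
      rwa [one_mul] at this)
  have h2 := thin_complete hn2 le_rfl hT
  have hnR : (2 : ℝ) ≤ n := by exact_mod_cast hn2
  have hc : ((n - 1 : ℕ) : ℝ) = (n : ℝ) - 1 := by
    rw [Nat.cast_sub (by omega)]
    norm_num
  rw [hc, Nat.cast_one, one_mul] at h2
  have hpos : (0 : ℝ) < (n : ℝ) - 1 := by linarith
  rw [div_le_div_iff₀ (by positivity) hpos] at h2
  have hNn : 8 / (4 - C) < n := by
    rw [hn]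
    push_cast
    linarith
  rw [div_lt_iff₀ (by linarith)] at hNn
  nlinarith

end Vale.Agent.Results.P061.ConstantAtLeastFour
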