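import Mathlib
import Vale.Agent.Lib.P061.Defs
import Vale.Agent.Lib.P061.Main

namespace Vale.Agent.Results.P061.FourOverK

open Vale.Agent.P061

/-- for every `ε > 0` and all large `k` there is a `k`-edge-connected multigraph in which no
spanning tree is `(4 - ε) / k`-thin -/
theorem result (ε : ℝ) (hε : 0 < ε) : ∃ k₀ : ℕ, ∀ k : ℕ, k₀ ≤ k →
    ∃ (V E : Type) (_ : Fintype V) (_ : DecidableEq V) (_ : Fintype E) (G : MultiGraph V E),
      2 ≤ Fintype.card V ∧ G.EdgeConnected k ∧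
        ∀ T : Finset E, G.IsSpanningTree T → ¬ G.IsThin ((4 - ε) / k) T := by
  obtain ⟨k₀, hk₀⟩ := exists_no_thin ε hε
  refine ⟨k₀, fun k hk => ?_⟩
  obtain ⟨n, m, hn, h1, h2⟩ := hk₀ k hk
  refine ⟨Fin n, _, inferInstance, inferInstance, inferInstance, completeMulti n m, ?_, h1, h2⟩
  rw [Fintype.card_fin]
  exact hn

end Vale.Agent.Results.P061.FourOverK
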